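import Vale.Agent.Lib.P054.Curves

/-!
P054, hand-in: the higher-dimensional distinct distances bound, in pinned form, for point sets
covered by few lines, circles or other thin curves.
-/

namespace Vale.Agent.Results.P054.FewCurves

open Vale.Agent.P054

/-- Let the `n` points of `P ⊆ R^d` be covered by `k` sets.
(1) If every sphere centred at a point of one of the sets contains at most `m` points of this set,
then `n ≤ k (1 + m |D_x(P)|)` for some `x ∈ P`.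
(2) If moreover `n ≥ 2` and `k ≤ K n ^ (1 - 2/d)` then `n ^ (2/d) ≤ K (1 + m) |D_x(P)|` for some
`x ∈ P`, and `n ^ (2/d) ≤ K (1 + m) |Δ(P)|`.
(3) The sets may be lines and circles, with `m = 2`. -/
theorem result (d : ℕ) (P : Finset (Pt d)) (k m : ℕ) (A : Fin k → Set (Pt d))
    (hcov : ∀ p ∈ P, ∃ i, p ∈ A i) :
    ((∀ i, Thin m (A i)) → P.Nonempty →
      ∃ x ∈ P, P.card ≤ k * (1 + m * (pinned P x).ncard)) ∧
    ((∀ i, Thin m (A i)) → 2 ≤ P.card →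
      ∀ K : ℝ, (k : ℝ) ≤ K * (P.card : ℝ) ^ (1 - 2 / (d : ℝ)) →
        (∃ x ∈ P, (P.card : ℝ) ^ (2 / (d : ℝ)) ≤ K * (1 + m) * ((pinned P x).ncard : ℝ)) ∧
        (P.card : ℝ) ^ (2 / (d : ℝ)) ≤ K * (1 + m) * ((dists P).ncard : ℝ)) ∧
    ((∀ i, IsLine (A i) ∨ IsCircle (A i)) → 2 ≤ P.card →
      ∀ K : ℝ, (k : ℝ) ≤ K * (P.card : ℝ) ^ (1 - 2 / (d : ℝ)) →
        (∃ x ∈ P, (P.card : ℝ) ^ (2 / (d : ℝ)) ≤ 3 * K * ((pinned P x).ncard : ℝ)) ∧
        (P.card : ℝ) ^ (2 / (d : ℝ)) ≤ 3 * K * ((dists P).ncard : ℝ)) := by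
  have main : ∀ m' : ℕ, (∀ i, Thin m' (A i)) → 2 ≤ P.card →
      ∀ K : ℝ, (k : ℝ) ≤ K * (P.card : ℝ) ^ (1 - 2 / (d : ℝ)) →
        (∃ x ∈ P, (P.card : ℝ) ^ (2 / (d : ℝ)) ≤ K * (1 + m') * ((pinned P x).ncard : ℝ)) ∧
        (P.card : ℝ) ^ (2 / (d : ℝ)) ≤ K * (1 + m') * ((dists P).ncard : ℝ) := by
    intro m' hA hP K hK
    obtain ⟨x, hx, h⟩ := q1_bound P hP k m' A hA hcov K hK
    refine ⟨⟨x, hx, h⟩, h.trans ?_⟩
    have hn : (0 : ℝ) < P.card := by exact_mod_cast (show 0 < P.card by omega)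
    have hpow : 0 < (P.card : ℝ) ^ (1 - 2 / (d : ℝ)) := Real.rpow_pos_of_pos hn _
    have hK0 : 0 ≤ K := by
      by_contra hneg
      have h1 : K * (P.card : ℝ) ^ (1 - 2 / (d : ℝ)) < 0 :=
        mul_neg_of_neg_of_pos (not_le.1 hneg) hpow
      have h2 : (0 : ℝ) ≤ k := Nat.cast_nonneg k
      linarith
    have h3 : ((pinned P x).ncard : ℝ) ≤ ((dists P).ncard : ℝ) := by
      exact_mod_cast pinned_sub P hx
    exact mul_le_mul_of_nonneg_left h3 (by positivity)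
  refine ⟨fun hA hP => cover_bound P hP k m A hA hcov, main m, fun hA hP K hK => ?_⟩
  have h2 := main 2 (fun i => (hA i).elim thin_line thin_circle) hP K hK
  have e : K * (1 + ((2 : ℕ) : ℝ)) = 3 * K := by
    push_cast
    ring
  rw [e] at h2
  exact h2

end Vale.Agent.Results.P054.FewCurves
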