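import Mathlib

/-!
P054, hand-in: distinct distances for point sets of `ℝ^d` covered by few chains, each of them
monotone in its own orthonormal frame (after a linear isometry).
-/

namespace Vale.Agent.Results.P054.MonotoneChains

open Finset

theorem inj_of_le {d : ℕ} {x y z : EuclideanSpace ℝ (Fin d)} (hxy : ∀ i, x i ≤ y i)
    (hyz : ∀ i, y i ≤ z i) (h : dist x y = dist x z) : y = z := by
  have h1 : ∑ i, (x i - y i) ^ 2 = ∑ i, (x i - z i) ^ 2 := by
    have e1 := EuclideanSpace.dist_eq x y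
    have e2 := EuclideanSpace.dist_eq x z
    rw [e1, e2] at h
    have h2 := Real.sqrt_inj (Finset.sum_nonneg fun i _ => sq_nonneg _)
      (Finset.sum_nonneg fun i _ => sq_nonneg _) |>.1 h
    simpa [Real.dist_eq, sq_abs] using h2
  have h2 : ∀ i ∈ (univ : Finset (Fin d)), (x i - y i) ^ 2 ≤ (x i - z i) ^ 2 := by
    intro i _
    have a := hxy i
    have b := hyz i
    nlinarith
  have h3 := (Finset.sum_eq_sum_iff_of_le h2).1 h1
  ext i
  have a := hxy i
  have b := hyz i
  have c := h3 i (Finset.mem_univ i)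
  nlinarith

theorem result {d k : ℕ} (P : Finset (EuclideanSpace ℝ (Fin d))) (hP : P.Nonempty)
    -- `k` chains; the `j`-th one is totally ordered in the coordinatewise order after the
    -- linear isometry `e j`
    (C : Fin k → Set (EuclideanSpace ℝ (Fin d)))
    (e : Fin k → EuclideanSpace ℝ (Fin d) ≃ₗᵢ[ℝ] EuclideanSpace ℝ (Fin d))
    (hC : ∀ j, ∀ x ∈ C j, ∀ y ∈ C j,
      (∀ i, e j x i ≤ e j y i) ∨ (∀ i, e j y i ≤ e j x i))
    (hcov : ∀ x ∈ P, ∃ j, x ∈ C j) :
    -- some point of `P` has at least `|P| / k - 1` distinct distances to the other points of `P`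
    ∃ x ∈ P, (P.card : ℝ) / k - 1 ≤ ((fun y => dist x y) '' {y | y ∈ P ∧ y ≠ x}).ncard := by
  classical
  have hk : 0 < k := by
    obtain ⟨x, hx⟩ := hP
    obtain ⟨j, _⟩ := hcov x hx
    exact lt_of_le_of_lt (Nat.zero_le _) j.2
  have hPc : 0 < P.card := hP.card_pos
  let Q : Fin k → Finset (EuclideanSpace ℝ (Fin d)) := fun j => P.filter fun p => p ∈ C j
  obtain ⟨j, hj⟩ : ∃ j, P.card ≤ k * (Q j).card := by
    by_contra hcon
    push Not at hcon
    have h1 : P ⊆ univ.biUnion Q := by
      intro p hp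
      obtain ⟨j, hj⟩ := hcov p hp
      exact Finset.mem_biUnion.2 ⟨j, Finset.mem_univ _, Finset.mem_filter.2 ⟨hp, hj⟩⟩
    have h2 : P.card ≤ ∑ j, (Q j).card := (Finset.card_le_card h1).trans Finset.card_biUnion_le
    have h3 : k * ∑ j, (Q j).card < k * P.card := by
      rw [Finset.mul_sum]
      calc ∑ j, k * (Q j).card < ∑ _j : Fin k, P.card :=
            Finset.sum_lt_sum_of_nonempty ⟨⟨0, hk⟩, Finset.mem_univ _⟩ fun j _ => hcon j
        _ = k * P.card := by simp
    have h4 := Nat.lt_of_mul_lt_mul_left h3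
    omega
  have hQne : (Q j).Nonempty := by
    rw [← Finset.card_pos]
    by_contra hcon
    have : (Q j).card = 0 := by omega
    rw [this] at hj
    omega
  obtain ⟨x, hxQ, hmin⟩ := Finset.exists_min_image (Q j) (fun y => ∑ i, e j y i) hQne
  have hQ : ∀ y ∈ Q j, y ∈ P ∧ y ∈ C j := fun y hy => Finset.mem_filter.1 hy
  have hle : ∀ y ∈ Q j, ∀ i, e j x i ≤ e j y i := by
    intro y hy
    rcases hC j x (hQ x hxQ).2 y (hQ y hy).2 with h | h
    · exact h
    · have h1 := hmin y hy
      have h2 : ∑ i, e j y i = ∑ i, e j x i := le_antisymm (Finset.sum_le_sum fun i _ => h i) h1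
      have h3 := (Finset.sum_eq_sum_iff_of_le fun i _ => h i).1 h2
      intro i
      exact (h3 i (Finset.mem_univ i)).ge
  have hinj : Set.InjOn (fun y => dist x y) (Q j : Set (EuclideanSpace ℝ (Fin d))) := by
    intro y hy z hz hyz
    have hyz' : dist (e j x) (e j y) = dist (e j x) (e j z) := by
      rw [(e j).dist_map, (e j).dist_map]
      exact hyz
    apply (e j).injective
    rcases hC j y (hQ y hy).2 z (hQ z hz).2 with h | h
    · exact inj_of_le (hle y hy) h hyz'
    · exact (inj_of_le (hle z hz) h hyz'.symm).symm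
  refine ⟨x, (hQ x hxQ).1, ?_⟩
  have hfin : ((fun y => dist x y) '' {y | y ∈ P ∧ y ≠ x}).Finite := by
    refine Set.Finite.image _ (Set.Finite.subset P.finite_toSet ?_)
    rintro y ⟨hy, _⟩
    exact hy
  have h1 : ((fun y => dist x y) '' ((Q j).erase x : Finset _)).ncard
      ≤ ((fun y => dist x y) '' {y | y ∈ P ∧ y ≠ x}).ncard := by
    refine Set.ncard_le_ncard (Set.image_mono ?_) hfin
    intro y hy
    have hy' := Finset.mem_erase.1 (Finset.mem_coe.1 hy)
    exact ⟨(hQ y hy'.2).1, hy'.1⟩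
  have h2 : ((fun y => dist x y) '' ((Q j).erase x : Finset _)).ncard = (Q j).card - 1 := by
    rw [Set.InjOn.ncard_image (hinj.mono (by
      intro y hy
      exact Finset.mem_coe.2 (Finset.mem_of_mem_erase (Finset.mem_coe.1 hy)))),
      Set.ncard_coe_finset, Finset.card_erase_of_mem hxQ]
  rw [h2] at h1
  have h3 : 1 ≤ (Q j).card := hQne.card_pos
  have h4 : ((Q j).card : ℝ) - 1 ≤ ((fun y => dist x y) '' {y | y ∈ P ∧ y ≠ x}).ncard := by
    have : (Q j).card ≤ ((fun y => dist x y) '' {y | y ∈ P ∧ y ≠ x}).ncard + 1 := by omega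
    have h5 : ((Q j).card : ℝ) ≤ ((fun y => dist x y) '' {y | y ∈ P ∧ y ≠ x}).ncard + 1 := by
      exact_mod_cast this
    linarith
  refine le_trans ?_ h4
  have hkr : (0 : ℝ) < k := by exact_mod_cast hk
  have h5 : (P.card : ℝ) / k ≤ (Q j).card := by
    rw [div_le_iff₀ hkr]
    have : P.card ≤ (Q j).card * k := by rw [mul_comm]; exact hj
    exact_mod_cast this
  linarith

end Vale.Agent.Results.P054.MonotoneChains
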